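import Vale.Agent.P259.CanonicalCoherator
import Vale.Agent.P259.CylPath
import Vale.Agent.P259.MainAssembly

/-!
# P259: the Grothendieck homotopy hypothesis
-/

namespace Vale.Agent.Results.P259.HomotopyHypothesis

open Vale.Agent.P259

/-- Coherators exist; in every coherator identity cells exist and every parallel pair lifts;
and the homotopy hypothesis holds for every coherator. -/
theorem result : Nonempty Coherator ∧
    (∀ C : Coherator, Nonempty (IdChoice C) ∧
      ∀ (n : ℕ) (S : GSum) (f g : C.ext.Hom (GSum.disc n) S),
        C.ext.Parallel f g → ∃ h, C.ext.IsLift f g h) ∧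
    Vale.Agent.P259.HomotopyHypothesis := by
  refine ⟨⟨exists_coherator.choose⟩, fun C => ⟨Coherator.nonempty_idChoice C, fun n S f g hfg => ?_⟩,
    homotopyHypothesis_of_pathData exists_pathData⟩
  have hpar : (C.gs (C.rep S)).Par f g := by
    cases n with
    | zero => exact trivial
    | succ m => exact hfg
  obtain ⟨h, hs, ht⟩ := (C.pathData.isContr_rep S).rel n f g hpar
  exact ⟨h, hs, ht⟩

end Vale.Agent.Results.P259.HomotopyHypothesis
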